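import Mathlib

/-!
# P243, `r_3 > 1/3`, module M3 (model form of M3a)

In the model space `ℝ × (ℝ × ℝ)`: a compact convex set `K` that contains a segment of length `ℓ`
parallel to the first axis has volume at least `ℓ / 3` times the area of its projection along the
first axis (`M3m_model`).

Proof: the cone `D` over the projection `P` with apex at height `ℓ` above the foot `o` of the
segment has volume `ℓ |P| / 3` (slices at height `h` are homothetic copies of `P` of ratio
`1 - h / ℓ`), and for every `y` the fibre of `D` over `y` is contained in `[0, m]` where `m` is the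
length of the fibre of `K` over `y`, because that fibre contains an interval of length `h` for every
`h` in the fibre of `D`.
-/

open MeasureTheory Set

namespace Vale.Agent.Lib.P243.R3

/-- The cone map `(h, y) ↦ (h, o + (1 - h / ℓ) (y - o))`. -/
noncomputable def M3m_phi (o : ℝ × ℝ) (ℓ : ℝ) (z : ℝ × (ℝ × ℝ)) : ℝ × (ℝ × ℝ) :=
  (z.1, (1 - z.1 / ℓ) • (z.2 - o) + o)

lemma M3m_phi_continuous (o : ℝ × ℝ) (ℓ : ℝ) : Continuous (M3m_phi o ℓ) := by
  unfold M3m_phi
  fun_prop

/-- The cone over `P` with apex at height `ℓ` above `o`. -/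
def M3m_cone (P : Set (ℝ × ℝ)) (o : ℝ × ℝ) (ℓ : ℝ) : Set (ℝ × (ℝ × ℝ)) :=
  M3m_phi o ℓ '' (Icc (0 : ℝ) ℓ ×ˢ P)

lemma M3m_cone_compact {P : Set (ℝ × ℝ)} (hP : IsCompact P) (o : ℝ × ℝ) (ℓ : ℝ) :
    IsCompact (M3m_cone P o ℓ) :=
  (isCompact_Icc.prod hP).image (M3m_phi_continuous o ℓ)

lemma M3m_cone_slice (P : Set (ℝ × ℝ)) (o : ℝ × ℝ) (ℓ : ℝ) (h : ℝ) :
    Prod.mk h ⁻¹' M3m_cone P o ℓ =
      if h ∈ Icc (0 : ℝ) ℓ then AffineMap.homothety o (1 - h / ℓ) '' P else ∅ := by
  ext y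
  split_ifs with hh
  · constructor
    · rintro ⟨⟨h', y'⟩, ⟨hh', hy'⟩, heq⟩
      simp only [M3m_phi, Prod.mk.injEq] at heq
      obtain ⟨rfl, rfl⟩ := heq
      exact ⟨y', hy', by simp [AffineMap.homothety_apply]⟩
    · rintro ⟨y', hy', rfl⟩
      exact ⟨(h, y'), ⟨hh, hy'⟩, by simp [M3m_phi, AffineMap.homothety_apply]⟩
  · simp only [mem_empty_iff_false, iff_false]
    rintro ⟨⟨h', y'⟩, ⟨hh', hy'⟩, heq⟩
    simp only [M3m_phi, Prod.mk.injEq] at heq
    obtain ⟨rfl, -⟩ := heq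
    exact hh hh'

lemma M3m_cone_slice_volume (P : Set (ℝ × ℝ)) (o : ℝ × ℝ) (ℓ : ℝ) (h : ℝ) :
    volume (Prod.mk h ⁻¹' M3m_cone P o ℓ) =
      (Icc (0 : ℝ) ℓ).indicator (fun h => ENNReal.ofReal ((1 - h / ℓ) ^ 2) * volume P) h := by
  rw [M3m_cone_slice]
  by_cases hh : h ∈ Icc (0 : ℝ) ℓ
  · rw [if_pos hh, indicator_of_mem hh, Measure.addHaar_image_homothety]
    have h2 : Module.finrank ℝ (ℝ × ℝ) = 2 := by simp
    rw [h2, abs_of_nonneg (sq_nonneg _)]
  · rw [if_neg hh, indicator_of_notMem hh, measure_empty]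

lemma M3m_integral (ℓ : ℝ) (hℓ : 0 < ℓ) :
    ∫⁻ h in Icc (0 : ℝ) ℓ, ENNReal.ofReal ((1 - h / ℓ) ^ 2) = ENNReal.ofReal (ℓ / 3) := by
  have hcont : Continuous (fun h : ℝ => (1 - h / ℓ) ^ 2) := by fun_prop
  rw [← ofReal_integral_eq_lintegral_ofReal hcont.continuousOn.integrableOn_Icc
    (Filter.Eventually.of_forall fun h => sq_nonneg _)]
  congr 1
  rw [integral_Icc_eq_integral_Ioc, ← intervalIntegral.integral_of_le hℓ.le]
  have hderiv : ∀ x ∈ uIcc (0 : ℝ) ℓ,
      HasDerivAt (fun h : ℝ => -(ℓ / 3) * (1 - h / ℓ) ^ 3) ((1 - x / ℓ) ^ 2) x := by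
    intro x _
    have h1 : HasDerivAt (fun h : ℝ => 1 - h / ℓ) (-(1 / ℓ)) x := by
      simpa using ((hasDerivAt_id x).div_const ℓ).const_sub 1
    have h2 : HasDerivAt (fun h : ℝ => -(ℓ / 3) * (1 - h / ℓ) ^ 3)
        (-(ℓ / 3) * (3 * (1 - x / ℓ) ^ 2 * -(1 / ℓ))) x := by
      simpa using (h1.pow 3).const_mul (-(ℓ / 3))
    refine h2.congr_deriv ?_
    field_simp
  rw [intervalIntegral.integral_eq_sub_of_hasDerivAt hderiv (hcont.intervalIntegrable _ _)]
  field_simp
  ring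

/-- **Model form of M3a.** A compact convex subset of `ℝ × (ℝ × ℝ)` containing the segment from
`(t0, o)` to `(t0 + ℓ, o)` has volume at least `ℓ / 3` times the area of its projection. -/
theorem M3m_model (K : Set (ℝ × (ℝ × ℝ))) (hKc : IsCompact K) (hKv : Convex ℝ K) (t0 ℓ : ℝ)
    (o : ℝ × ℝ) (hℓ : 0 ≤ ℓ) (hp : (t0, o) ∈ K) (hq : (t0 + ℓ, o) ∈ K) :
    ℓ * (volume (Prod.snd '' K)).toReal ≤ 3 * (volume K).toReal := by
  rcases hℓ.eq_or_lt with h0 | hpos
  · rw [← h0, zero_mul]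
    positivity
  have hPc : IsCompact (Prod.snd '' K) := hKc.image continuous_snd
  have hDm : MeasurableSet (M3m_cone (Prod.snd '' K) o ℓ) :=
    (M3m_cone_compact hPc o ℓ).measurableSet
  have hKm : MeasurableSet K := hKc.measurableSet
  -- the volume of the cone
  have hvolD : volume (M3m_cone (Prod.snd '' K) o ℓ) =
      ENNReal.ofReal (ℓ / 3) * volume (Prod.snd '' K) := by
    have hmeas : Measurable (fun h : ℝ => ENNReal.ofReal ((1 - h / ℓ) ^ 2)) :=
      ENNReal.measurable_ofReal.comp (by fun_prop)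
    rw [Measure.volume_eq_prod, Measure.prod_apply hDm]
    simp_rw [M3m_cone_slice_volume]
    rw [lintegral_indicator measurableSet_Icc, lintegral_mul_const _ hmeas, M3m_integral ℓ hpos]
  -- fibrewise comparison of the cone with `K`
  have hle : volume (M3m_cone (Prod.snd '' K) o ℓ) ≤ volume K := by
    rw [Measure.volume_eq_prod, Measure.prod_apply_symm hDm, Measure.prod_apply_symm hKm]
    refine lintegral_mono fun y => ?_
    have hKyfin : volume ((fun x : ℝ => (x, y)) ⁻¹' K) ≠ ⊤ := by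
      have hsub : (fun x : ℝ => (x, y)) ⁻¹' K ⊆ Prod.fst '' K := fun t ht => ⟨(t, y), ht, rfl⟩
      exact ne_top_of_le_ne_top (hKc.image continuous_fst).measure_lt_top.ne (measure_mono hsub)
    have hsubset : (fun x : ℝ => (x, y)) ⁻¹' M3m_cone (Prod.snd '' K) o ℓ ⊆
        Icc 0 (volume ((fun x : ℝ => (x, y)) ⁻¹' K)).toReal := by
      intro h hh
      obtain ⟨⟨h', y'⟩, ⟨hh', hy'⟩, heq⟩ := hh
      simp only [M3m_phi, Prod.mk.injEq] at heq
      obtain ⟨rfl, hy⟩ := heq
      have hh'' : h' ∈ Icc (0 : ℝ) ℓ := hh'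
      refine ⟨hh''.1, ?_⟩
      rcases hh''.1.eq_or_lt with h0 | hpos'
      · rw [← h0]
        exact ENNReal.toReal_nonneg
      obtain ⟨⟨t', y''⟩, hK', rfl⟩ := hy'
      have hr0 : 0 < h' / ℓ := div_pos hpos' hpos
      have hr1 : h' / ℓ ≤ 1 := (div_le_one hpos).mpr hh''.2
      have hIcc : Icc ((h' / ℓ) * t0 + (1 - h' / ℓ) * t') ((h' / ℓ) * t0 + (1 - h' / ℓ) * t' + h') ⊆
          (fun x : ℝ => (x, y)) ⁻¹' K := by
        intro τ hτ
        set c : ℝ := (h' / ℓ) * t0 + (1 - h' / ℓ) * t' with hc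
        set r : ℝ := h' / ℓ with hr
        have ha0 : 0 ≤ (τ - c) / r := div_nonneg (by linarith [hτ.1]) hr0.le
        have haℓ : (τ - c) / r ≤ ℓ := by
          rw [div_le_iff₀ hr0]
          have : ℓ * r = h' := by rw [hr]; field_simp
          linarith [hτ.2]
        have hmem1 : (t0 + (τ - c) / r, o) ∈ K := by
          have := hKv hp hq (a := 1 - (τ - c) / r / ℓ) (b := (τ - c) / r / ℓ)
            (by rw [sub_nonneg, div_le_one hpos]; exact haℓ) (div_nonneg ha0 hpos.le) (by ring)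
          have heq : (1 - (τ - c) / r / ℓ) • ((t0, o) : ℝ × (ℝ × ℝ)) +
              ((τ - c) / r / ℓ) • ((t0 + ℓ, o) : ℝ × (ℝ × ℝ)) = (t0 + (τ - c) / r, o) := by
            refine Prod.ext ?_ ?_
            · simp only [Prod.fst_add, Prod.smul_fst, smul_eq_mul]
              field_simp
              ring
            · simp only [Prod.snd_add, Prod.smul_snd]
              rw [← add_smul, sub_add_cancel, one_smul]
          rwa [heq] at this
        have hmem2 := hKv hmem1 hK' (a := r) (b := 1 - r) hr0.le (by linarith) (by ring)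
        have heq2 : r • ((t0 + (τ - c) / r, o) : ℝ × (ℝ × ℝ)) + (1 - r) • ((t', y'') : ℝ × (ℝ × ℝ))
            = (τ, y) := by
          refine Prod.ext ?_ ?_
          · simp only [Prod.fst_add, Prod.smul_fst, smul_eq_mul]
            rw [mul_add, mul_div_cancel₀ _ hr0.ne', hc]
            ring
          · simp only [Prod.snd_add, Prod.smul_snd]
            rw [← hy]
            module
        rw [heq2] at hmem2
        exact hmem2
      have h1 := measure_mono (μ := volume) hIcc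
      rw [Real.volume_Icc, add_sub_cancel_left] at h1
      exact (ENNReal.ofReal_le_iff_le_toReal hKyfin).mp h1
    calc volume ((fun x : ℝ => (x, y)) ⁻¹' M3m_cone (Prod.snd '' K) o ℓ)
        ≤ volume (Icc 0 (volume ((fun x : ℝ => (x, y)) ⁻¹' K)).toReal) := measure_mono hsubset
      _ = volume ((fun x : ℝ => (x, y)) ⁻¹' K) := by
        rw [Real.volume_Icc, sub_zero, ENNReal.ofReal_toReal hKyfin]
  have hfin : volume K ≠ ⊤ := hKc.measure_lt_top.ne
  have h3 : ENNReal.ofReal (ℓ / 3) * volume (Prod.snd '' K) ≤ volume K := hvolD ▸ hle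
  have h4 := ENNReal.toReal_mono hfin h3
  rw [ENNReal.toReal_mul, ENNReal.toReal_ofReal (by positivity)] at h4
  calc ℓ * (volume (Prod.snd '' K)).toReal = 3 * (ℓ / 3 * (volume (Prod.snd '' K)).toReal) := by
        ring
    _ ≤ 3 * (volume K).toReal := by linarith

end Vale.Agent.Lib.P243.R3
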