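import Mathlib
import Vale.Agent.Lib.P243.R3.helper1.M3Model

/-!
# P243, `r_3 > 1/3`: the model chord bound in `ENNReal` form (job J7, final statement)

`M3m_model_le` is the statement of `M3l_model_le` of the job file, derived from `M3m_model`.
-/

open MeasureTheory Set

namespace Vale.Agent.Lib.P243.R3

/-- The model chord bound: `ℓ * area (proj K) ≤ 3 * vol K`, in `ENNReal`. -/
theorem M3m_model_le {K : Set (ℝ × (ℝ × ℝ))} (hK : IsCompact K) (hc : Convex ℝ K) {z0 l : ℝ}
    {o : ℝ × ℝ} (hl : 0 ≤ l) (h0 : (z0, o) ∈ K) (h1 : (z0 + l, o) ∈ K) :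
    ENNReal.ofReal l * volume (Prod.snd '' K) ≤ 3 * volume K := by
  have hreal := M3m_model K hK hc z0 l o hl h0 h1
  have hPfin : volume (Prod.snd '' K) ≠ ⊤ := (hK.image continuous_snd).measure_lt_top.ne
  have hKfin : volume K ≠ ⊤ := hK.measure_lt_top.ne
  calc ENNReal.ofReal l * volume (Prod.snd '' K)
      = ENNReal.ofReal (l * (volume (Prod.snd '' K)).toReal) := by
        rw [ENNReal.ofReal_mul hl, ENNReal.ofReal_toReal hPfin]
    _ ≤ ENNReal.ofReal (3 * (volume K).toReal) := ENNReal.ofReal_le_ofReal hreal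
    _ = 3 * volume K := by
        rw [ENNReal.ofReal_mul (by norm_num), ENNReal.ofReal_toReal hKfin]
        norm_num

end Vale.Agent.Lib.P243.R3
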